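import Vale.Agent.P011UHB.Spec
import Vale.Agent.P011UQ2.Main
import Vale.Agent.P011UC.Tr
import Mathlib.FieldTheory.Galois.Infinite

/-!
Invariance of the notions, the action on the diagram, fixed fields of prime degree.
-/

set_option autoImplicit false
set_option linter.all false

namespace Vale.Agent.P011UIV

open Vale.Agent.P011L Vale.Agent.P011LD Vale.Agent.P183CH Vale.Agent.P011U Vale.Agent.P011UQ
  Vale.Agent.P011UHB

theorem glob_fin {k L : Type} [Field k] [Field L] [Algebra k L] [FiniteDimensional k L]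
    (h : Glob k) : Glob L := by
  rcases h with h | ⟨F, _, _, _, h⟩
  · exact .inl (NumberField.of_module_finite k L)
  · letI : Algebra (RatFunc F) L := ((algebraMap k L).comp (algebraMap (RatFunc F) k)).toAlgebra
    haveI : IsScalarTower (RatFunc F) k L := IsScalarTower.of_algebraMap_eq fun _ => rfl
    exact .inr ⟨F, inferInstance, inferInstance, inferInstance,
      FiniteDimensional.trans (RatFunc F) k L⟩

theorem std_bo {R : RS} {K G : Type} [Field K] [Group G] {Γ : RG R K G} (hΓ : Γ.Ok) (hR : R.Ok)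
    {ψ : G →* G} {σ : K →+* K} {g : G} {c : Fin R.r → Kˣ} {π : Equiv.Perm (Fin R.r)}
    (h : Std Γ ψ σ g c π) {b : G} (hb : b ∈ Γ.Bo) : g⁻¹ * ψ b * g ∈ Γ.Bo := by
  obtain ⟨u, hu, t, ht, rfl⟩ := hΓ.mem_Bo.1 hb
  have := mul_mem (RG.U_le_Bo (P011UP.std_X hΓ h hR (fun γ e _ => P011UP.pm_nonneg e) hu))
    (RG.T_le_Bo (P011UP.std_T hΓ h ht))
  rwa [show g⁻¹ * ψ u * g * (g⁻¹ * ψ t * g) = g⁻¹ * ψ (u * t) * g by rw [map_mul]; group] at this

section

variable {k K : Type} [Field k] [Field K] [Algebra k K] {D : Chev} {T T' : Tw k (D.grp K)}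

/-- the data of an isomorphism of forms -/
theorem eqv_data [Infinite K] (hD : SC D) (e : Eqv T T') :
    ∃ (ψ : D.grp K ≃* D.grp K) (g : _) (c : _) (c' : _) (π : _),
      (∀ σ x, T'.a σ (ψ x) = ψ (T.a σ x)) ∧ Std (GG D K) ψ id g c π ∧
        Std (GG D K) ψ.symm id (ψ.symm g⁻¹) c' π⁻¹ := by
  obtain ⟨ψ, p1, p2, e⟩ := e
  obtain ⟨g, c, π, h⟩ := P011UB.aut D hD K ψ p1 p2
  exact ⟨ψ, g, c, _, π, e, h, P011UC.std_symm h⟩

theorem lift_co {g : (K ≃ₐ[k] K) → D.grp K} (h : ∀ σ τ, tz T g σ τ = 1) (σ τ : K ≃ₐ[k] K) :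
    g (σ * τ) = T.a σ (g τ) * g σ := inv_mul_eq_one.1 ((mul_assoc _ _ _).symm.trans (h σ τ))

theorem nf_one {g c π} (h : NF T g c π) : Op ⊤ fun τ => g τ = 1 :=
  (near_op h.2.2).imp fun τ _ e => by simpa [h.2.1] using (e 1).1

theorem eqv_lift [Infinite K] [Normal k K] (hD : SC D) (e : Eqv T T') (h : Lift T) : Lift T' := by
  obtain ⟨ψ, g0, c0, c1, π0, e, h0, h1⟩ := eqv_data hD e
  obtain ⟨g, c, π, h, hz⟩ := h
  have h2 : ∀ σ, ∃ c' π', Std (GG D K) (T'.a σ) σ (T'.a σ g0⁻¹ * ψ (g σ) * g0) c' π' := fun σ => by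
    have h5 := Std.comp (ψ := ψ.toMonoidHom) (σ := RingHom.id K) h0
      (Std.comp (ψ := (T.a σ).toMonoidHom) (σ := (σ : K →+* K)) (h.1 σ) h1)
    have e1 : (fun x => ψ.toMonoidHom ((T.a σ).toMonoidHom (ψ.symm x))) = T'.a σ :=
      funext fun x => (e σ _).symm.trans (congrArg _ (ψ.apply_symm_apply _))
    have e2 : ψ.toMonoidHom ((T.a σ).toMonoidHom (ψ.symm g0⁻¹) * g σ) =
        T'.a σ g0⁻¹ * ψ (g σ) := by
      rw [map_mul]
      exact congrArg (· * _) (congrFun e1 _)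
    rw [e1, e2] at h5
    exact ⟨_, _, h5⟩
  choose c' π' h2 using h2
  refine lift_of h2 (fun σ τ => ?_) (((nf_one h).and (tw_fix T' g0⁻¹)).imp fun τ _ a => by
    rw [a.1, a.2, map_one, mul_one, inv_mul_cancel])
  rw [tz, lift_co hz, map_mul ψ, ← e, map_mul T'.a, MulAut.mul_apply, map_mul, map_mul,
    map_inv (T'.a σ) g0]
  group

theorem eqv_qs [Infinite K] (hD : SC D) (e : Eqv T T') {S : Set K} (h : QS T S) : QS T' S := by
  obtain ⟨ψ, g0, c0, c1, π0, e, h0, h1⟩ := eqv_data hD e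
  obtain ⟨y, h⟩ := h
  refine ⟨ψ y * g0, fun σ hσ p hp => ?_⟩
  have h2 := std_bo GG_ok (Chev.R_ok D) (ψ := ψ.symm.toMonoidHom) (σ := RingHom.id K) h1 hp
  have h3 := std_bo GG_ok (Chev.R_ok D) (ψ := ψ.toMonoidHom) (σ := RingHom.id K) h0 (h σ hσ _ h2)
  have e1 : ψ (y * ((ψ.symm g0⁻¹)⁻¹ * ψ.symm.toMonoidHom p * ψ.symm g0⁻¹) * y⁻¹) =
      ψ y * g0 * p * (ψ y * g0)⁻¹ := by simp [mul_assoc]
  rw [← e1, e]
  simpa [mul_assoc] using h3

theorem eqv_per [Infinite K] (hD : SC D) (e : Eqv T T') {S : Set K} {l : ℕ} (h : Per T l S) :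
    Per T' l S := fun p hp hl h0 => by
  obtain ⟨N, hN, Φ, g, c, h, h'⟩ := h p hp hl h0
  obtain ⟨ψ, g0, c0, c1, π0, e, h0', h1⟩ := eqv_data hD e
  haveI := Fact.mk hp
  haveI : CharP K p := (CharP.charP_iff_prime_eq_zero hp).2 h0
  have h5 := Std.comp (ψ := ψ.toMonoidHom) (σ := RingHom.id K) h0'
    (Std.comp (ψ := Φ) (σ := iterateFrobenius K p N) h h1)
  rw [one_mul, mul_inv_cancel] at h5
  refine ⟨N, hN, ψ.toMonoidHom.comp (Φ.comp ψ.symm.toMonoidHom), _, _, h5, fun σ hσ x => ?_⟩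
  obtain ⟨x, rfl⟩ := ψ.surjective x
  show ψ (Φ (ψ.symm (T'.a σ (ψ x)))) = T'.a σ (ψ (Φ (ψ.symm (ψ x))))
  rw [e, e, ψ.symm_apply_apply, ψ.symm_apply_apply, h' σ hσ]

theorem res_lift [IsGalois k K] {L : IntermediateField k K} {T' : Tw L (D.grp K)}
    (e : Res T L T') (h : Lift T) : Lift T' := by
  obtain ⟨g, c, π, h, hz⟩ := h
  obtain ⟨S, hS⟩ := nf_one h
  exact lift_of (g := fun σ => g (σ.restrictScalars k)) (c := fun σ => c (σ.restrictScalars k))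
    (π := fun σ => π (σ.restrictScalars k))
    (fun σ => by rw [e]; exact h.1 (σ.restrictScalars k))
    (fun σ τ => by rw [tz, e]; exact hz (σ.restrictScalars k) (τ.restrictScalars k))
    ⟨S, fun σ _ a => hS (σ.restrictScalars k) trivial a⟩

end

theorem inv : INV := by
  intro k K _ _ _ _ _ D hD T
  haveI := Infinite.of_injective _ (algebraMap k K).injective
  refine ⟨fun T' e => ⟨P011UC.eqv_symm e, eqv_lift hD e, fun S => ⟨eqv_qs hD e, fun h σ hσ => ?_,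
    fun h σ hσ => ?_, fun l => eqv_per hD e⟩⟩, fun L _ =>
      ⟨glob_fin, P011UC.res T L, P011UC.res_res T L, res_lift (P011UC.res_res T L)⟩⟩
  · obtain ⟨ρ, -, hρ⟩ := P011UQ2.eqv_std hD (P011UC.eqv_symm e)
    obtain ⟨g, c, h⟩ := h σ hσ
    simpa using hρ σ g c 1 h
  · obtain ⟨ρ, -, hρ⟩ := P011UQ2.eqv_std hD (P011UC.eqv_symm e)
    obtain ⟨g, c, π, h, h3⟩ := h σ hσ
    obtain ⟨g', c', h'⟩ := hρ σ g c π h
    refine ⟨g', c', _, h', ?_⟩
    rw [show (ρ⁻¹ * π * ρ) ^ 3 = ρ⁻¹ * π ^ 3 * ρ by simp only [pow_succ, pow_zero]; group, h3]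
    group

theorem sta : STA := by
  intro k K _ _ _ _ _ D hD T
  obtain ⟨g, c, π, h⟩ := P011UC.nfx P011UB.aut k K D hD T
  obtain ⟨p, z, h1, h2, -⟩ := nf_co hD h
  refine ⟨p, fun σ => ⟨g σ, c σ, h1 σ ▸ h.1 σ⟩, fun σ g' c' π' h' => ?_,
    op_near (h2.op.imp fun _ _ a => a.1)⟩
  rw [h1]
  exact (std_uniq GG_ok (Chev.R_ok D) (h.1 σ) h' (map_one σ)).1

theorem gal : GAL := by
  intro k K _ _ _ _ l L H hl _ h1 h2 h3
  rcases (Nat.dvd_prime hl).1 h3 with h | h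
  · exact ⟨L, .refl, fun σ hσ => Subgroup.relIndex_eq_one.1 h
      ((IntermediateField.mem_fixingSubgroup_iff L σ).2 hσ)⟩
  let f : (K ≃ₐ[L] K) →* (K ≃ₐ[k] K) :=
    { toFun := fun σ => σ.restrictScalars k
      map_one' := rfl
      map_mul' := fun _ _ => rfl }
  have hf : f.range = L.fixingSubgroup := Subgroup.ext fun σ =>
    ⟨fun ⟨τ, e⟩ => (IntermediateField.mem_fixingSubgroup_iff L σ).2 fun x hx =>
      e ▸ τ.commutes ⟨x, hx⟩, fun e => ⟨L.fixingSubgroupEquiv ⟨σ, e⟩, rfl⟩⟩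
  obtain ⟨S, hS⟩ := near_op h1
  obtain ⟨F, _, hF⟩ := op_near (P := fun τ : K ≃ₐ[L] K => τ ∈ H.comap f)
    ⟨S, fun σ _ a => hS _ trivial a⟩
  have o : IsOpen (H.comap f : Set (K ≃ₐ[L] K)) := Subgroup.isOpen_mono
    (fun τ e => hF τ ((IntermediateField.mem_fixingSubgroup_iff F τ).1 e)) F.fixingSubgroup_isOpen
  have e := InfiniteGalois.fixingSubgroup_fixedField
    (⟨H.comap f, Subgroup.isClosed_of_isOpen _ o⟩ : ClosedSubgroup (K ≃ₐ[L] K))
  refine ⟨(IntermediateField.fixedField (H.comap f)).restrictScalars k, .single ⟨l, rfl, hl, _, rfl,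
    ?_, (InfiniteGalois.normal_iff_isGalois _).1 ?_⟩, fun σ hσ => ?_⟩
  · rw [IntermediateField.finrank_eq_fixingSubgroup_index, e, Subgroup.index_comap, hf, h]
  · rw [e]
    exact ⟨fun τ hτ σ => h2 (f σ) (fun x hx => σ.commutes ⟨x, hx⟩) _ hτ⟩
  · obtain ⟨τ, rfl⟩ : σ ∈ f.range := hf ▸ (IntermediateField.mem_fixingSubgroup_iff L σ).2
      fun x hx => hσ x ((IntermediateField.fixedField (H.comap f)).algebraMap_mem ⟨x, hx⟩)
    have : τ ∈ (IntermediateField.fixedField (H.comap f)).fixingSubgroup :=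
      (IntermediateField.mem_fixingSubgroup_iff _ τ).2 hσ
    rw [e] at this
    exact this

end Vale.Agent.P011UIV
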